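import Vale.Agent.P050.Design

namespace Vale.Agent.Results.P050.Counter

open Vale.Agent.P050

theorem result : ∃ (V : Type) (_ : Fintype V) (H : SimpleGraph V),
    H.IsBipartite ∧ H.edgeSet.Nonempty ∧
      ∃ (N : ℕ) (G : SimpleGraph (Fin N)), 0 < N ∧
        (Nat.card (H →g G) : ℝ) / (N : ℝ) ^ Fintype.card V
          < (2 * (G.edgeSet.ncard : ℝ) / (N : ℝ) ^ 2) ^ H.edgeSet.ncard := by
  obtain ⟨N, hN, G, h⟩ := graph_exists
  refine ⟨Lab, inferInstance, HH, HH_bip, ⟨_, HH.mem_edgeSet.2 (HH_adj (0, 0))⟩, N, G, hN, ?_⟩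
  rwa [HH_card, ← tG_H, ← tG_edge]

end Vale.Agent.Results.P050.Counter
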